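import Crest.Agent.R169.Basic1

/-!
# rid 169, file `Chart`: coordinates at the fifteen nodes

For the node `(e,e')`: `u, w, r1, r2, r3` are a `ℤ`-basis of `Fin 5 → ℤ` (a vector `ρ` has coordinates `ρ ᵥ* inv`, i.e. the
coefficient number `j` is `∑ i, ρ i * inv i j`), and with the signs `(su,sw,s1,s2,s3)`:
`mono r1 = s1 (1 - su mono u)`, `mono r2 = s2 (1 - sw mono w)`, `mono r3 = s3 (1 - su sw mono u * mono w)`.
For `(e',e)` swap `u` and `w`.
```
(0,5): u=[1, 0, 0, 0, -1] w=[0, 0, -1, 0, 1] r1=[0, 1, 0, 0, -1] r2=[0, 0, -1, 1, 0] r3=[0, 0, -1, 0, 0] signs=(-1, -1, 1, 1, -1) inv=[[1, 1, 0, 0, -1], [0, 1, 1, 0, -1], [0, 0, 0, 0, -1], [0, 0, 0, 1, -1], [0, 1, 0, 0, -1]]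
(0,8): u=[1, 0, -1, 0, 0] w=[0, 0, 1, 0, -1] r1=[0, 0, -1, 0, 0] r2=[0, 0, 0, 1, -1] r3=[0, 1, 0, 0, -1] signs=(1, -1, -1, 1, 1) inv=[[1, 0, -1, 0, 0], [0, -1, -1, 0, 1], [0, 0, -1, 0, 0], [0, -1, -1, 1, 0], [0, -1, -1, 0, 0]]
(0,3): u=[1, 0, 0, 0, 0] w=[0, 0, 0, 1, -1] r1=[0, 0, 1, 0, 0] r2=[0, 0, 1, 0, -1] r3=[0, 1, 1, 0, -1] signs=(1, 1, -1, -1, -1) inv=[[1, 0, 0, 0, 0], [0, 0, 0, -1, 1], [0, 0, 1, 0, 0], [0, 1, 1, -1, 0], [0, 0, 1, -1, 0]]
(1,5): u=[0, 1, 0, 0, -1] w=[0, 0, 0, -1, 1] r1=[1, 0, 0, 0, -1] r2=[0, 0, 1, -1, 0] r3=[0, 0, 0, -1, 0] signs=(1, 1, -1, 1, -1) inv=[[0, 1, 1, 0, -1], [1, 1, 0, 0, -1], [0, 0, 0, 1, -1], [0, 0, 0, 0, -1], [0, 1, 0, 0, -1]]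
(1,7): u=[0, 1, 0, -1, 0] w=[0, 0, 0, 1, -1] r1=[0, 0, 0, -1, 0] r2=[0, 0, 1, 0, -1] r3=[1, 0, 0, 0, -1] signs=(1, 1, -1, -1, -1) inv=[[0, -1, -1, 0, 1], [1, 0, -1, 0, 0], [0, -1, -1, 1, 0], [0, 0, -1, 0, 0], [0, -1, -1, 0, 0]]
(1,2): u=[0, 1, 0, 0, 0] w=[0, 0, 1, 0, -1] r1=[0, 0, 0, 1, 0] r2=[0, 0, 0, 1, -1] r3=[1, 0, 0, 1, -1] signs=(1, -1, -1, 1, 1) inv=[[0, 0, 0, -1, 1], [1, 0, 0, 0, 0], [0, 1, 1, -1, 0], [0, 0, 1, 0, 0], [0, 0, 1, -1, 0]]
(2,6): u=[0, 1, 1, 0, -1] w=[0, -1, 0, 0, 1] r1=[1, 0, 0, 1, -1] r2=[1, -1, 0, 0, 0] r3=[1, 0, 0, 0, 0] signs=(-1, 1, 1, 1, 1) inv=[[0, 0, 0, 0, 1], [0, 0, 0, -1, 1], [1, 1, 0, 0, 0], [0, 1, 1, -1, 0], [0, 1, 0, -1, 1]]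
(2,8): u=[-1, 0, 1, 0, 0] w=[1, 0, 0, 0, -1] r1=[-1, 0, 0, 0, 0] r2=[0, 1, 0, 0, -1] r3=[0, 0, 0, 1, -1] signs=(1, -1, 1, 1, 1) inv=[[0, 0, -1, 0, 0], [0, -1, -1, 1, 0], [1, 0, -1, 0, 0], [0, -1, -1, 0, 1], [0, -1, -1, 0, 0]]
(3,6): u=[1, 0, 0, 1, -1] w=[-1, 0, 0, 0, 1] r1=[0, 1, 1, 0, -1] r2=[-1, 1, 0, 0, 0] r3=[0, 1, 0, 0, 0] signs=(1, -1, -1, 1, 1) inv=[[0, 0, 0, -1, 1], [0, 0, 0, 0, 1], [0, 1, 1, -1, 0], [1, 1, 0, 0, 0], [0, 1, 0, -1, 1]]
(3,7): u=[0, -1, 0, 1, 0] w=[0, 1, 0, 0, -1] r1=[0, -1, 0, 0, 0] r2=[1, 0, 0, 0, -1] r3=[0, 0, 1, 0, -1] signs=(1, 1, 1, -1, -1) inv=[[0, -1, -1, 1, 0], [0, 0, -1, 0, 0], [0, -1, -1, 0, 1], [1, 0, -1, 0, 0], [0, -1, -1, 0, 0]]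
(4,6): u=[-1, 0, 0, -1, 1] w=[0, 0, 0, 1, 0] r1=[-1, 1, 1, -1, 0] r2=[0, 1, 0, 0, 0] r3=[-1, 1, 0, 0, 0] signs=(1, -1, 1, 1, 1) inv=[[0, 0, 0, 1, -1], [0, 0, 0, 1, 0], [0, 1, 1, 0, -1], [0, 1, 0, 0, 0], [1, 1, 0, 1, -1]]
(4,9): u=[-1, 0, 0, 0, 1] w=[0, 0, 0, -1, 0] r1=[-1, 1, 0, 0, 0] r2=[0, 1, 0, -1, 0] r3=[-1, 1, 1, -1, 0] signs=(-1, -1, 1, 1, 1) inv=[[0, -1, -1, 1, 0], [0, -1, 0, 1, 0], [0, -1, -1, 0, 1], [0, -1, 0, 0, 0], [1, -1, -1, 1, 0]]
(4,5): u=[0, -1, 0, 0, 1] w=[0, 1, 0, -1, 0] r1=[1, -1, 0, 0, 0] r2=[0, 0, 0, -1, 0] r3=[0, 0, 1, -1, 0] signs=(1, 1, 1, -1, 1) inv=[[0, 1, 1, -1, 0], [0, 1, 0, -1, 0], [0, 0, 0, -1, 1], [0, 0, 0, -1, 0], [1, 1, 0, -1, 0]]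
(7,9): u=[0, 1, 0, 0, -1] w=[0, -1, -1, 0, 1] r1=[1, 0, 0, 0, -1] r2=[1, -1, -1, 1, 0] r3=[1, 0, -1, 0, 0] signs=(1, -1, -1, 1, 1) inv=[[-1, -1, 0, 0, 1], [0, -1, -1, 0, 1], [-1, -1, 0, 0, 0], [0, -1, -1, 1, 0], [-1, -1, -1, 0, 1]]
(8,9): u=[1, 0, 0, 0, -1] w=[-1, 0, 0, -1, 1] r1=[0, 1, 0, 0, -1] r2=[-1, 1, 1, -1, 0] r3=[0, 1, 0, -1, 0] signs=(-1, 1, 1, 1, 1) inv=[[0, -1, -1, 0, 1], [-1, -1, 0, 0, 1], [0, -1, -1, 1, 0], [-1, -1, 0, 0, 0], [-1, -1, -1, 0, 1]]
```
Prefix helper lemmas with `chart_`.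
-/

set_option autoImplicit false

namespace Crest.Agent.R169

variable {k : Type} [Field k]

variable (k) in
/-- Local coordinates at a node. -/
structure ChartData (e e' : Fin 10) (u w : Fin 5 → ℤ) (r : Fin 3 → Fin 5 → ℤ) : Prop where
  ue : rel u e = 1
  ue' : rel u e' = 0
  we : rel w e = 0
  we' : rel w e' = 1
  re : ∀ i, rel (r i) e = 0
  re' : ∀ i, rel (r i) e' = 0
  basis : ∀ ρ : Fin 5 → ℤ, ∃ (a b : ℤ) (c : Fin 3 → ℤ), ρ = a • u + b • w + ∑ i, c i • r i
  poly : ∀ i, mono k (r i) ∈ Algebra.adjoin k {mono k u, mono k w}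

set_option linter.unusedSimpArgs false

theorem chart_mono (a b c d e : ℤ) : mono k ![a, b, c, d, e] =
    pp k 0 ^ a * pp k 1 ^ b * (pp k 0 - 1) ^ c * (pp k 1 - 1) ^ d * (pp k 1 - pp k 0) ^ e := by
  have h2 : pp k 2 = pp k 0 - 1 := by simp [pp, ppP]
  have h3 : pp k 3 = pp k 1 - 1 := by simp [pp, ppP]
  have h4 : pp k 4 = pp k 1 - pp k 0 := by simp [pp, ppP]
  rw [mono, Fin.prod_univ_five, h2, h3, h4]
  rfl

theorem chart_ne2 : pp k 0 - 1 ≠ 0 := by
  have h2 : pp k 2 = pp k 0 - 1 := by simp [pp, ppP]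
  exact h2 ▸ pp_ne_zero k 2

theorem chart_ne3 : pp k 1 - 1 ≠ 0 := by
  have h3 : pp k 3 = pp k 1 - 1 := by simp [pp, ppP]
  exact h3 ▸ pp_ne_zero k 3

theorem chart_ne4 : pp k 1 - pp k 0 ≠ 0 := by
  have h4 : pp k 4 = pp k 1 - pp k 0 := by simp [pp, ppP]
  exact h4 ▸ pp_ne_zero k 4

theorem chart_mk {e e' : Fin 10} (u w r1 r2 r3 : Fin 5 → ℤ) (su sw s1 s2 s3 : ℤ)
    (inv : Fin 5 → Fin 5 → ℤ)
    (hrel : rel u e = 1 ∧ rel u e' = 0 ∧ rel w e = 0 ∧ rel w e' = 1 ∧ rel r1 e = 0 ∧ rel r2 e = 0 ∧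
      rel r3 e = 0 ∧ rel r1 e' = 0 ∧ rel r2 e' = 0 ∧ rel r3 e' = 0)
    (hinv : ∀ i j : Fin 5, inv i 0 * u j + inv i 1 * w j + inv i 2 * r1 j + inv i 3 * r2 j +
      inv i 4 * r3 j = if i = j then 1 else 0)
    (h1 : mono k r1 = s1 * (1 - su * mono k u)) (h2 : mono k r2 = s2 * (1 - sw * mono k w))
    (h3 : mono k r3 = s3 * (1 - su * sw * (mono k u * mono k w))) :
    ∃ u w r, ChartData k e e' u w r := by
  obtain ⟨a1, a2, a3, a4, a5, a6, a7, a8, a9, a10⟩ := hrel
  refine ⟨u, w, ![r1, r2, r3], a1, a2, a3, a4, fun i => ?_, fun i => ?_, fun ρ => ?_, fun i => ?_⟩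
  · fin_cases i
    exacts [a5, a6, a7]
  · fin_cases i
    exacts [a8, a9, a10]
  · refine ⟨∑ i, ρ i * inv i 0, ∑ i, ρ i * inv i 1,
      ![∑ i, ρ i * inv i 2, ∑ i, ρ i * inv i 3, ∑ i, ρ i * inv i 4], funext fun j => ?_⟩
    have : ρ j = ∑ i, ρ i * (inv i 0 * u j + inv i 1 * w j + inv i 2 * r1 j + inv i 3 * r2 j +
        inv i 4 * r3 j) := by
      simp only [hinv, mul_ite, mul_one, mul_zero, Finset.sum_ite_eq', Finset.mem_univ, if_true]
    rw [this]
    simp only [Fin.sum_univ_three, Pi.add_apply, Pi.smul_apply, smul_eq_mul, Matrix.cons_val_zero,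
      Matrix.cons_val_one, Matrix.cons_val_two, Matrix.head_cons, Matrix.tail_cons, mul_add,
      Finset.sum_add_distrib, Finset.sum_mul, mul_assoc, add_assoc]
  · have hu : mono k u ∈ Algebra.adjoin k {mono k u, mono k w} :=
      Algebra.subset_adjoin (by simp)
    have hw : mono k w ∈ Algebra.adjoin k {mono k u, mono k w} :=
      Algebra.subset_adjoin (by simp)
    fin_cases i
    · change mono k r1 ∈ _
      rw [h1]
      exact mul_mem (intCast_mem _ _) (sub_mem (one_mem _) (mul_mem (intCast_mem _ _) hu))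
    · change mono k r2 ∈ _
      rw [h2]
      exact mul_mem (intCast_mem _ _) (sub_mem (one_mem _) (mul_mem (intCast_mem _ _) hw))
    · change mono k r3 ∈ _
      rw [h3]
      exact mul_mem (intCast_mem _ _) (sub_mem (one_mem _)
        (mul_mem (mul_mem (intCast_mem _ _) (intCast_mem _ _)) (mul_mem hu hw)))

theorem chart_swap {e e' : Fin 10} (h : ∃ u w r, ChartData k e e' u w r) :
    ∃ u w r, ChartData k e' e u w r := by
  obtain ⟨u, w, r, h⟩ := h
  refine ⟨w, u, r, h.we', h.we, h.ue', h.ue, h.re', h.re, fun ρ => ?_, fun i => ?_⟩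
  · obtain ⟨a, b, c, hρ⟩ := h.basis ρ
    exact ⟨b, a, c, by rw [hρ, add_comm (a • u)]⟩
  · rw [Set.pair_comm]
    exact h.poly i

theorem chart_0_5 : ∃ u w r, ChartData k 0 5 u w r :=
  chart_mk ![1, 0, 0, 0, -1] ![0, 0, -1, 0, 1] ![0, 1, 0, 0, -1] ![0, 0, -1, 1, 0] ![0, 0, -1, 0, 0]
    (-1) (-1) (1) (1) (-1)
    ![![1, 1, 0, 0, -1], ![0, 1, 1, 0, -1], ![0, 0, 0, 0, -1], ![0, 0, 0, 1, -1], ![0, 1, 0, 0, -1]]
    (by decide) (by decide)
    (by
      have h0 := pp_ne_zero k 0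
      have h1 := pp_ne_zero k 1
      have h2 := chart_ne2 (k := k)
      have h3 := chart_ne3 (k := k)
      have h4 := chart_ne4 (k := k)
      simp only [chart_mono, zpow_neg, zpow_one, zpow_zero, Int.cast_neg, Int.cast_one]
      field_simp
      try ring)
    (by
      have h0 := pp_ne_zero k 0
      have h1 := pp_ne_zero k 1
      have h2 := chart_ne2 (k := k)
      have h3 := chart_ne3 (k := k)
      have h4 := chart_ne4 (k := k)
      simp only [chart_mono, zpow_neg, zpow_one, zpow_zero, Int.cast_neg, Int.cast_one]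
      field_simp
      try ring)
    (by
      have h0 := pp_ne_zero k 0
      have h1 := pp_ne_zero k 1
      have h2 := chart_ne2 (k := k)
      have h3 := chart_ne3 (k := k)
      have h4 := chart_ne4 (k := k)
      simp only [chart_mono, zpow_neg, zpow_one, zpow_zero, Int.cast_neg, Int.cast_one]
      field_simp
      try ring)

theorem chart_0_8 : ∃ u w r, ChartData k 0 8 u w r :=
  chart_mk ![1, 0, -1, 0, 0] ![0, 0, 1, 0, -1] ![0, 0, -1, 0, 0] ![0, 0, 0, 1, -1] ![0, 1, 0, 0, -1]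
    (1) (-1) (-1) (1) (1)
    ![![1, 0, -1, 0, 0], ![0, -1, -1, 0, 1], ![0, 0, -1, 0, 0], ![0, -1, -1, 1, 0], ![0, -1, -1, 0, 0]]
    (by decide) (by decide)
    (by
      have h0 := pp_ne_zero k 0
      have h1 := pp_ne_zero k 1
      have h2 := chart_ne2 (k := k)
      have h3 := chart_ne3 (k := k)
      have h4 := chart_ne4 (k := k)
      simp only [chart_mono, zpow_neg, zpow_one, zpow_zero, Int.cast_neg, Int.cast_one]
      field_simp
      try ring)
    (by
      have h0 := pp_ne_zero k 0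
      have h1 := pp_ne_zero k 1
      have h2 := chart_ne2 (k := k)
      have h3 := chart_ne3 (k := k)
      have h4 := chart_ne4 (k := k)
      simp only [chart_mono, zpow_neg, zpow_one, zpow_zero, Int.cast_neg, Int.cast_one]
      field_simp
      try ring)
    (by
      have h0 := pp_ne_zero k 0
      have h1 := pp_ne_zero k 1
      have h2 := chart_ne2 (k := k)
      have h3 := chart_ne3 (k := k)
      have h4 := chart_ne4 (k := k)
      simp only [chart_mono, zpow_neg, zpow_one, zpow_zero, Int.cast_neg, Int.cast_one]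
      field_simp
      try ring)

theorem chart_0_3 : ∃ u w r, ChartData k 0 3 u w r :=
  chart_mk ![1, 0, 0, 0, 0] ![0, 0, 0, 1, -1] ![0, 0, 1, 0, 0] ![0, 0, 1, 0, -1] ![0, 1, 1, 0, -1]
    (1) (1) (-1) (-1) (-1)
    ![![1, 0, 0, 0, 0], ![0, 0, 0, -1, 1], ![0, 0, 1, 0, 0], ![0, 1, 1, -1, 0], ![0, 0, 1, -1, 0]]
    (by decide) (by decide)
    (by
      have h0 := pp_ne_zero k 0
      have h1 := pp_ne_zero k 1
      have h2 := chart_ne2 (k := k)
      have h3 := chart_ne3 (k := k)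
      have h4 := chart_ne4 (k := k)
      simp only [chart_mono, zpow_neg, zpow_one, zpow_zero, Int.cast_neg, Int.cast_one]
      field_simp
      try ring)
    (by
      have h0 := pp_ne_zero k 0
      have h1 := pp_ne_zero k 1
      have h2 := chart_ne2 (k := k)
      have h3 := chart_ne3 (k := k)
      have h4 := chart_ne4 (k := k)
      simp only [chart_mono, zpow_neg, zpow_one, zpow_zero, Int.cast_neg, Int.cast_one]
      field_simp
      try ring)
    (by
      have h0 := pp_ne_zero k 0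
      have h1 := pp_ne_zero k 1
      have h2 := chart_ne2 (k := k)
      have h3 := chart_ne3 (k := k)
      have h4 := chart_ne4 (k := k)
      simp only [chart_mono, zpow_neg, zpow_one, zpow_zero, Int.cast_neg, Int.cast_one]
      field_simp
      try ring)

theorem chart_1_5 : ∃ u w r, ChartData k 1 5 u w r :=
  chart_mk ![0, 1, 0, 0, -1] ![0, 0, 0, -1, 1] ![1, 0, 0, 0, -1] ![0, 0, 1, -1, 0] ![0, 0, 0, -1, 0]
    (1) (1) (-1) (1) (-1)
    ![![0, 1, 1, 0, -1], ![1, 1, 0, 0, -1], ![0, 0, 0, 1, -1], ![0, 0, 0, 0, -1], ![0, 1, 0, 0, -1]]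
    (by decide) (by decide)
    (by
      have h0 := pp_ne_zero k 0
      have h1 := pp_ne_zero k 1
      have h2 := chart_ne2 (k := k)
      have h3 := chart_ne3 (k := k)
      have h4 := chart_ne4 (k := k)
      simp only [chart_mono, zpow_neg, zpow_one, zpow_zero, Int.cast_neg, Int.cast_one]
      field_simp
      try ring)
    (by
      have h0 := pp_ne_zero k 0
      have h1 := pp_ne_zero k 1
      have h2 := chart_ne2 (k := k)
      have h3 := chart_ne3 (k := k)
      have h4 := chart_ne4 (k := k)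
      simp only [chart_mono, zpow_neg, zpow_one, zpow_zero, Int.cast_neg, Int.cast_one]
      field_simp
      try ring)
    (by
      have h0 := pp_ne_zero k 0
      have h1 := pp_ne_zero k 1
      have h2 := chart_ne2 (k := k)
      have h3 := chart_ne3 (k := k)
      have h4 := chart_ne4 (k := k)
      simp only [chart_mono, zpow_neg, zpow_one, zpow_zero, Int.cast_neg, Int.cast_one]
      field_simp
      try ring)

theorem chart_1_7 : ∃ u w r, ChartData k 1 7 u w r :=
  chart_mk ![0, 1, 0, -1, 0] ![0, 0, 0, 1, -1] ![0, 0, 0, -1, 0] ![0, 0, 1, 0, -1] ![1, 0, 0, 0, -1]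
    (1) (1) (-1) (-1) (-1)
    ![![0, -1, -1, 0, 1], ![1, 0, -1, 0, 0], ![0, -1, -1, 1, 0], ![0, 0, -1, 0, 0], ![0, -1, -1, 0, 0]]
    (by decide) (by decide)
    (by
      have h0 := pp_ne_zero k 0
      have h1 := pp_ne_zero k 1
      have h2 := chart_ne2 (k := k)
      have h3 := chart_ne3 (k := k)
      have h4 := chart_ne4 (k := k)
      simp only [chart_mono, zpow_neg, zpow_one, zpow_zero, Int.cast_neg, Int.cast_one]
      field_simp
      try ring)
    (by
      have h0 := pp_ne_zero k 0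
      have h1 := pp_ne_zero k 1
      have h2 := chart_ne2 (k := k)
      have h3 := chart_ne3 (k := k)
      have h4 := chart_ne4 (k := k)
      simp only [chart_mono, zpow_neg, zpow_one, zpow_zero, Int.cast_neg, Int.cast_one]
      field_simp
      try ring)
    (by
      have h0 := pp_ne_zero k 0
      have h1 := pp_ne_zero k 1
      have h2 := chart_ne2 (k := k)
      have h3 := chart_ne3 (k := k)
      have h4 := chart_ne4 (k := k)
      simp only [chart_mono, zpow_neg, zpow_one, zpow_zero, Int.cast_neg, Int.cast_one]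
      field_simp
      try ring)

theorem chart_1_2 : ∃ u w r, ChartData k 1 2 u w r :=
  chart_mk ![0, 1, 0, 0, 0] ![0, 0, 1, 0, -1] ![0, 0, 0, 1, 0] ![0, 0, 0, 1, -1] ![1, 0, 0, 1, -1]
    (1) (-1) (-1) (1) (1)
    ![![0, 0, 0, -1, 1], ![1, 0, 0, 0, 0], ![0, 1, 1, -1, 0], ![0, 0, 1, 0, 0], ![0, 0, 1, -1, 0]]
    (by decide) (by decide)
    (by
      have h0 := pp_ne_zero k 0
      have h1 := pp_ne_zero k 1
      have h2 := chart_ne2 (k := k)
      have h3 := chart_ne3 (k := k)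
      have h4 := chart_ne4 (k := k)
      simp only [chart_mono, zpow_neg, zpow_one, zpow_zero, Int.cast_neg, Int.cast_one]
      field_simp
      try ring)
    (by
      have h0 := pp_ne_zero k 0
      have h1 := pp_ne_zero k 1
      have h2 := chart_ne2 (k := k)
      have h3 := chart_ne3 (k := k)
      have h4 := chart_ne4 (k := k)
      simp only [chart_mono, zpow_neg, zpow_one, zpow_zero, Int.cast_neg, Int.cast_one]
      field_simp
      try ring)
    (by
      have h0 := pp_ne_zero k 0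
      have h1 := pp_ne_zero k 1
      have h2 := chart_ne2 (k := k)
      have h3 := chart_ne3 (k := k)
      have h4 := chart_ne4 (k := k)
      simp only [chart_mono, zpow_neg, zpow_one, zpow_zero, Int.cast_neg, Int.cast_one]
      field_simp
      try ring)

theorem chart_2_6 : ∃ u w r, ChartData k 2 6 u w r :=
  chart_mk ![0, 1, 1, 0, -1] ![0, -1, 0, 0, 1] ![1, 0, 0, 1, -1] ![1, -1, 0, 0, 0] ![1, 0, 0, 0, 0]
    (-1) (1) (1) (1) (1)
    ![![0, 0, 0, 0, 1], ![0, 0, 0, -1, 1], ![1, 1, 0, 0, 0], ![0, 1, 1, -1, 0], ![0, 1, 0, -1, 1]]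
    (by decide) (by decide)
    (by
      have h0 := pp_ne_zero k 0
      have h1 := pp_ne_zero k 1
      have h2 := chart_ne2 (k := k)
      have h3 := chart_ne3 (k := k)
      have h4 := chart_ne4 (k := k)
      simp only [chart_mono, zpow_neg, zpow_one, zpow_zero, Int.cast_neg, Int.cast_one]
      field_simp
      try ring)
    (by
      have h0 := pp_ne_zero k 0
      have h1 := pp_ne_zero k 1
      have h2 := chart_ne2 (k := k)
      have h3 := chart_ne3 (k := k)
      have h4 := chart_ne4 (k := k)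
      simp only [chart_mono, zpow_neg, zpow_one, zpow_zero, Int.cast_neg, Int.cast_one]
      field_simp
      try ring)
    (by
      have h0 := pp_ne_zero k 0
      have h1 := pp_ne_zero k 1
      have h2 := chart_ne2 (k := k)
      have h3 := chart_ne3 (k := k)
      have h4 := chart_ne4 (k := k)
      simp only [chart_mono, zpow_neg, zpow_one, zpow_zero, Int.cast_neg, Int.cast_one]
      field_simp
      try ring)

theorem chart_2_8 : ∃ u w r, ChartData k 2 8 u w r :=
  chart_mk ![-1, 0, 1, 0, 0] ![1, 0, 0, 0, -1] ![-1, 0, 0, 0, 0] ![0, 1, 0, 0, -1] ![0, 0, 0, 1, -1]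
    (1) (-1) (1) (1) (1)
    ![![0, 0, -1, 0, 0], ![0, -1, -1, 1, 0], ![1, 0, -1, 0, 0], ![0, -1, -1, 0, 1], ![0, -1, -1, 0, 0]]
    (by decide) (by decide)
    (by
      have h0 := pp_ne_zero k 0
      have h1 := pp_ne_zero k 1
      have h2 := chart_ne2 (k := k)
      have h3 := chart_ne3 (k := k)
      have h4 := chart_ne4 (k := k)
      simp only [chart_mono, zpow_neg, zpow_one, zpow_zero, Int.cast_neg, Int.cast_one]
      field_simp
      try ring)
    (by
      have h0 := pp_ne_zero k 0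
      have h1 := pp_ne_zero k 1
      have h2 := chart_ne2 (k := k)
      have h3 := chart_ne3 (k := k)
      have h4 := chart_ne4 (k := k)
      simp only [chart_mono, zpow_neg, zpow_one, zpow_zero, Int.cast_neg, Int.cast_one]
      field_simp
      try ring)
    (by
      have h0 := pp_ne_zero k 0
      have h1 := pp_ne_zero k 1
      have h2 := chart_ne2 (k := k)
      have h3 := chart_ne3 (k := k)
      have h4 := chart_ne4 (k := k)
      simp only [chart_mono, zpow_neg, zpow_one, zpow_zero, Int.cast_neg, Int.cast_one]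
      field_simp
      try ring)

theorem chart_3_6 : ∃ u w r, ChartData k 3 6 u w r :=
  chart_mk ![1, 0, 0, 1, -1] ![-1, 0, 0, 0, 1] ![0, 1, 1, 0, -1] ![-1, 1, 0, 0, 0] ![0, 1, 0, 0, 0]
    (1) (-1) (-1) (1) (1)
    ![![0, 0, 0, -1, 1], ![0, 0, 0, 0, 1], ![0, 1, 1, -1, 0], ![1, 1, 0, 0, 0], ![0, 1, 0, -1, 1]]
    (by decide) (by decide)
    (by
      have h0 := pp_ne_zero k 0
      have h1 := pp_ne_zero k 1
      have h2 := chart_ne2 (k := k)
      have h3 := chart_ne3 (k := k)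
      have h4 := chart_ne4 (k := k)
      simp only [chart_mono, zpow_neg, zpow_one, zpow_zero, Int.cast_neg, Int.cast_one]
      field_simp
      try ring)
    (by
      have h0 := pp_ne_zero k 0
      have h1 := pp_ne_zero k 1
      have h2 := chart_ne2 (k := k)
      have h3 := chart_ne3 (k := k)
      have h4 := chart_ne4 (k := k)
      simp only [chart_mono, zpow_neg, zpow_one, zpow_zero, Int.cast_neg, Int.cast_one]
      field_simp
      try ring)
    (by
      have h0 := pp_ne_zero k 0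
      have h1 := pp_ne_zero k 1
      have h2 := chart_ne2 (k := k)
      have h3 := chart_ne3 (k := k)
      have h4 := chart_ne4 (k := k)
      simp only [chart_mono, zpow_neg, zpow_one, zpow_zero, Int.cast_neg, Int.cast_one]
      field_simp
      try ring)

theorem chart_3_7 : ∃ u w r, ChartData k 3 7 u w r :=
  chart_mk ![0, -1, 0, 1, 0] ![0, 1, 0, 0, -1] ![0, -1, 0, 0, 0] ![1, 0, 0, 0, -1] ![0, 0, 1, 0, -1]
    (1) (1) (1) (-1) (-1)
    ![![0, -1, -1, 1, 0], ![0, 0, -1, 0, 0], ![0, -1, -1, 0, 1], ![1, 0, -1, 0, 0], ![0, -1, -1, 0, 0]]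
    (by decide) (by decide)
    (by
      have h0 := pp_ne_zero k 0
      have h1 := pp_ne_zero k 1
      have h2 := chart_ne2 (k := k)
      have h3 := chart_ne3 (k := k)
      have h4 := chart_ne4 (k := k)
      simp only [chart_mono, zpow_neg, zpow_one, zpow_zero, Int.cast_neg, Int.cast_one]
      field_simp
      try ring)
    (by
      have h0 := pp_ne_zero k 0
      have h1 := pp_ne_zero k 1
      have h2 := chart_ne2 (k := k)
      have h3 := chart_ne3 (k := k)
      have h4 := chart_ne4 (k := k)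
      simp only [chart_mono, zpow_neg, zpow_one, zpow_zero, Int.cast_neg, Int.cast_one]
      field_simp
      try ring)
    (by
      have h0 := pp_ne_zero k 0
      have h1 := pp_ne_zero k 1
      have h2 := chart_ne2 (k := k)
      have h3 := chart_ne3 (k := k)
      have h4 := chart_ne4 (k := k)
      simp only [chart_mono, zpow_neg, zpow_one, zpow_zero, Int.cast_neg, Int.cast_one]
      field_simp
      try ring)

theorem chart_4_6 : ∃ u w r, ChartData k 4 6 u w r :=
  chart_mk ![-1, 0, 0, -1, 1] ![0, 0, 0, 1, 0] ![-1, 1, 1, -1, 0] ![0, 1, 0, 0, 0] ![-1, 1, 0, 0, 0]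
    (1) (-1) (1) (1) (1)
    ![![0, 0, 0, 1, -1], ![0, 0, 0, 1, 0], ![0, 1, 1, 0, -1], ![0, 1, 0, 0, 0], ![1, 1, 0, 1, -1]]
    (by decide) (by decide)
    (by
      have h0 := pp_ne_zero k 0
      have h1 := pp_ne_zero k 1
      have h2 := chart_ne2 (k := k)
      have h3 := chart_ne3 (k := k)
      have h4 := chart_ne4 (k := k)
      simp only [chart_mono, zpow_neg, zpow_one, zpow_zero, Int.cast_neg, Int.cast_one]
      field_simp
      try ring)
    (by
      have h0 := pp_ne_zero k 0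
      have h1 := pp_ne_zero k 1
      have h2 := chart_ne2 (k := k)
      have h3 := chart_ne3 (k := k)
      have h4 := chart_ne4 (k := k)
      simp only [chart_mono, zpow_neg, zpow_one, zpow_zero, Int.cast_neg, Int.cast_one]
      field_simp
      try ring)
    (by
      have h0 := pp_ne_zero k 0
      have h1 := pp_ne_zero k 1
      have h2 := chart_ne2 (k := k)
      have h3 := chart_ne3 (k := k)
      have h4 := chart_ne4 (k := k)
      simp only [chart_mono, zpow_neg, zpow_one, zpow_zero, Int.cast_neg, Int.cast_one]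
      field_simp
      try ring)

theorem chart_4_9 : ∃ u w r, ChartData k 4 9 u w r :=
  chart_mk ![-1, 0, 0, 0, 1] ![0, 0, 0, -1, 0] ![-1, 1, 0, 0, 0] ![0, 1, 0, -1, 0] ![-1, 1, 1, -1, 0]
    (-1) (-1) (1) (1) (1)
    ![![0, -1, -1, 1, 0], ![0, -1, 0, 1, 0], ![0, -1, -1, 0, 1], ![0, -1, 0, 0, 0], ![1, -1, -1, 1, 0]]
    (by decide) (by decide)
    (by
      have h0 := pp_ne_zero k 0
      have h1 := pp_ne_zero k 1
      have h2 := chart_ne2 (k := k)
      have h3 := chart_ne3 (k := k)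
      have h4 := chart_ne4 (k := k)
      simp only [chart_mono, zpow_neg, zpow_one, zpow_zero, Int.cast_neg, Int.cast_one]
      field_simp
      try ring)
    (by
      have h0 := pp_ne_zero k 0
      have h1 := pp_ne_zero k 1
      have h2 := chart_ne2 (k := k)
      have h3 := chart_ne3 (k := k)
      have h4 := chart_ne4 (k := k)
      simp only [chart_mono, zpow_neg, zpow_one, zpow_zero, Int.cast_neg, Int.cast_one]
      field_simp
      try ring)
    (by
      have h0 := pp_ne_zero k 0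
      have h1 := pp_ne_zero k 1
      have h2 := chart_ne2 (k := k)
      have h3 := chart_ne3 (k := k)
      have h4 := chart_ne4 (k := k)
      simp only [chart_mono, zpow_neg, zpow_one, zpow_zero, Int.cast_neg, Int.cast_one]
      field_simp
      try ring)

theorem chart_4_5 : ∃ u w r, ChartData k 4 5 u w r :=
  chart_mk ![0, -1, 0, 0, 1] ![0, 1, 0, -1, 0] ![1, -1, 0, 0, 0] ![0, 0, 0, -1, 0] ![0, 0, 1, -1, 0]
    (1) (1) (1) (-1) (1)
    ![![0, 1, 1, -1, 0], ![0, 1, 0, -1, 0], ![0, 0, 0, -1, 1], ![0, 0, 0, -1, 0], ![1, 1, 0, -1, 0]]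
    (by decide) (by decide)
    (by
      have h0 := pp_ne_zero k 0
      have h1 := pp_ne_zero k 1
      have h2 := chart_ne2 (k := k)
      have h3 := chart_ne3 (k := k)
      have h4 := chart_ne4 (k := k)
      simp only [chart_mono, zpow_neg, zpow_one, zpow_zero, Int.cast_neg, Int.cast_one]
      field_simp
      try ring)
    (by
      have h0 := pp_ne_zero k 0
      have h1 := pp_ne_zero k 1
      have h2 := chart_ne2 (k := k)
      have h3 := chart_ne3 (k := k)
      have h4 := chart_ne4 (k := k)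
      simp only [chart_mono, zpow_neg, zpow_one, zpow_zero, Int.cast_neg, Int.cast_one]
      field_simp
      try ring)
    (by
      have h0 := pp_ne_zero k 0
      have h1 := pp_ne_zero k 1
      have h2 := chart_ne2 (k := k)
      have h3 := chart_ne3 (k := k)
      have h4 := chart_ne4 (k := k)
      simp only [chart_mono, zpow_neg, zpow_one, zpow_zero, Int.cast_neg, Int.cast_one]
      field_simp
      try ring)

theorem chart_7_9 : ∃ u w r, ChartData k 7 9 u w r :=
  chart_mk ![0, 1, 0, 0, -1] ![0, -1, -1, 0, 1] ![1, 0, 0, 0, -1] ![1, -1, -1, 1, 0] ![1, 0, -1, 0, 0]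
    (1) (-1) (-1) (1) (1)
    ![![-1, -1, 0, 0, 1], ![0, -1, -1, 0, 1], ![-1, -1, 0, 0, 0], ![0, -1, -1, 1, 0], ![-1, -1, -1, 0, 1]]
    (by decide) (by decide)
    (by
      have h0 := pp_ne_zero k 0
      have h1 := pp_ne_zero k 1
      have h2 := chart_ne2 (k := k)
      have h3 := chart_ne3 (k := k)
      have h4 := chart_ne4 (k := k)
      simp only [chart_mono, zpow_neg, zpow_one, zpow_zero, Int.cast_neg, Int.cast_one]
      field_simp
      try ring)
    (by
      have h0 := pp_ne_zero k 0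
      have h1 := pp_ne_zero k 1
      have h2 := chart_ne2 (k := k)
      have h3 := chart_ne3 (k := k)
      have h4 := chart_ne4 (k := k)
      simp only [chart_mono, zpow_neg, zpow_one, zpow_zero, Int.cast_neg, Int.cast_one]
      field_simp
      try ring)
    (by
      have h0 := pp_ne_zero k 0
      have h1 := pp_ne_zero k 1
      have h2 := chart_ne2 (k := k)
      have h3 := chart_ne3 (k := k)
      have h4 := chart_ne4 (k := k)
      simp only [chart_mono, zpow_neg, zpow_one, zpow_zero, Int.cast_neg, Int.cast_one]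
      field_simp
      try ring)

theorem chart_8_9 : ∃ u w r, ChartData k 8 9 u w r :=
  chart_mk ![1, 0, 0, 0, -1] ![-1, 0, 0, -1, 1] ![0, 1, 0, 0, -1] ![-1, 1, 1, -1, 0] ![0, 1, 0, -1, 0]
    (-1) (1) (1) (1) (1)
    ![![0, -1, -1, 0, 1], ![-1, -1, 0, 0, 1], ![0, -1, -1, 1, 0], ![-1, -1, 0, 0, 0], ![-1, -1, -1, 0, 1]]
    (by decide) (by decide)
    (by
      have h0 := pp_ne_zero k 0
      have h1 := pp_ne_zero k 1
      have h2 := chart_ne2 (k := k)
      have h3 := chart_ne3 (k := k)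
      have h4 := chart_ne4 (k := k)
      simp only [chart_mono, zpow_neg, zpow_one, zpow_zero, Int.cast_neg, Int.cast_one]
      field_simp
      try ring)
    (by
      have h0 := pp_ne_zero k 0
      have h1 := pp_ne_zero k 1
      have h2 := chart_ne2 (k := k)
      have h3 := chart_ne3 (k := k)
      have h4 := chart_ne4 (k := k)
      simp only [chart_mono, zpow_neg, zpow_one, zpow_zero, Int.cast_neg, Int.cast_one]
      field_simp
      try ring)
    (by
      have h0 := pp_ne_zero k 0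
      have h1 := pp_ne_zero k 1
      have h2 := chart_ne2 (k := k)
      have h3 := chart_ne3 (k := k)
      have h4 := chart_ne4 (k := k)
      simp only [chart_mono, zpow_neg, zpow_one, zpow_zero, Int.cast_neg, Int.cast_one]
      field_simp
      try ring)

/-- Fifteen cases from the table.  Unfold `mono` with `Fin.prod_univ_five`; with `s = pp k 0`, `t = pp k 1` one has
`pp k 2 = s - 1`, `pp k 3 = t - 1`, `pp k 4 = t - s`, all nonzero; `field_simp; ring`. -/
theorem exists_chart {e e' : Fin 10} (h : Adj e e') : ∃ u w r, ChartData k e e' u w r := by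
  obtain ⟨i, rfl⟩ := h
  fin_cases e <;> fin_cases i
  exacts [chart_0_5, chart_0_8, chart_0_3, chart_1_5, chart_1_7, chart_1_2, chart_2_6, chart_swap chart_1_2, chart_2_8, chart_3_6, chart_swap chart_0_3, chart_3_7, chart_4_6, chart_4_9, chart_4_5, chart_swap chart_0_5, chart_swap chart_1_5, chart_swap chart_4_5, chart_swap chart_2_6, chart_swap chart_3_6, chart_swap chart_4_6, chart_7_9, chart_swap chart_1_7, chart_swap chart_3_7, chart_8_9, chart_swap chart_0_8, chart_swap chart_2_8, chart_swap chart_7_9, chart_swap chart_8_9, chart_swap chart_4_9]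

theorem chart_mono_nsmul (m : ℕ) (ρ : Fin 5 → ℤ) : mono k ((m : ℤ) • ρ) = mono k ρ ^ m := by
  induction m with
  | zero => simp [mono_zero]
  | succ m ih => rw [Nat.cast_succ, add_smul, one_smul, mono_add, ih, pow_succ]

theorem chart_rel_smul (a : ℤ) (ρ : Fin 5 → ℤ) (e : Fin 10) : rel (a • ρ) e = a * rel ρ e := by
  fin_cases e <;> simp [rel] <;> ring

theorem chart_rel_sub (ρ ρ' : Fin 5 → ℤ) (e : Fin 10) : rel (ρ - ρ') e = rel ρ e - rel ρ' e := by
  fin_cases e <;> simp [rel] <;> ring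

theorem chart_rel_sum (c : Fin 3 → ℤ) (r : Fin 3 → Fin 5 → ℤ) (e : Fin 10) (h : ∀ i, rel (r i) e = 0) :
    rel (∑ i, c i • r i) e = 0 := by
  simp only [Fin.sum_univ_three, rel_add, Pi.add_apply, chart_rel_smul, h, mul_zero, add_zero]

theorem chart_adjoin_span {A : Type} [CommRing A] [Algebra k A] (x y : A) {f : A}
    (hf : f ∈ Algebra.adjoin k {x, y}) :
    f ∈ Submodule.span k {g | ∃ a b : ℕ, g = x ^ a * y ^ b} := by
  induction hf using Algebra.adjoin_induction with
  | mem z hz =>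
    rcases hz with rfl | rfl
    · exact Submodule.subset_span ⟨1, 0, by simp⟩
    · exact Submodule.subset_span ⟨0, 1, by simp⟩
  | algebraMap c =>
    rw [Algebra.algebraMap_eq_smul_one]
    exact Submodule.smul_mem _ c (Submodule.subset_span ⟨0, 0, by simp⟩)
  | add a b _ _ ha hb => exact add_mem ha hb
  | mul f g hf' hg' hf hg =>
    clear hf' hg'
    induction hf using Submodule.span_induction with
    | mem f h =>
      obtain ⟨a, b, rfl⟩ := h
      induction hg using Submodule.span_induction with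
      | mem g h =>
        obtain ⟨a', b', rfl⟩ := h
        exact Submodule.subset_span ⟨a + a', b + b', by ring⟩
      | zero => simp
      | add a b _ _ ha hb => rw [mul_add]; exact add_mem ha hb
      | smul c a _ ha => rw [mul_smul_comm]; exact Submodule.smul_mem _ c ha
    | zero => simp
    | add a b _ _ ha hb => rw [add_mul]; exact add_mem ha hb
    | smul c a _ ha => rw [smul_mul_assoc]; exact Submodule.smul_mem _ c ha

theorem chart_div {p : ℕ} (hp : 0 < p) (n : ℕ) {i a : ℤ} (x : ℕ) (h : 0 ≤ i + n * a) :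
    ∃ (x1 : Fin p) (a' : ℤ), a + x = p * a' + (x1 : ℕ) ∧ 0 ≤ (i + (n : ℤ) * (x1 : ℕ)) / p + n * a' := by
  have hp' : (0 : ℤ) < p := by exact_mod_cast hp
  have h0 := Int.emod_nonneg (a + x) hp'.ne'
  have h1 := Int.emod_lt_of_pos (a + x) hp'
  refine ⟨⟨((a + x) % p).toNat, by omega⟩, (a + x) / p, ?_, ?_⟩
  · simp only [Int.toNat_of_nonneg h0]
    exact (Int.mul_ediv_add_emod _ _).symm
  · simp only [Int.toNat_of_nonneg h0]
    rw [← Int.add_mul_ediv_left _ _ hp'.ne']
    refine Int.ediv_nonneg ?_ hp'.le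
    have h2 := Int.mul_ediv_add_emod (a + x) p
    have h3 : (0 : ℤ) ≤ n * x := by positivity
    have : i + n * ((a + x) % p) + p * (n * ((a + x) / p)) = i + n * a + n * x := by
      linear_combination (n : ℤ) * h2
    rw [this]
    omega

/-- Monomials that are regular on the chart, in terms of `p`-th powers (any `p > 0`).
Write `ρ = a • u + b • w + ∑ c i • r i` (so `rel ρ e = a`, `rel ρ e' = b`), choose `M : ℕ` with `c i + p M ≥ 0` and put
`η = M • ∑ r i`.  Then `mono (∑ c i • r i + p • η)` lies in `adjoin k {mono u, mono w}`, the span of the `mono u ^ x * mono w ^ y`.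
So `mono ρ` is a combination of `mono (-p • η) * mono u ^ (a + x) * mono w ^ (b + y)`.  Divide with remainder
`a + x = p a' + x1`, `b + y = p b' + x2` and put `ρ' = a' • u + b' • w - η`; from `0 ≤ i + n (a + x)` get
`0 ≤ (i + n x1) / p + n a'` (`Int.le_ediv_iff_mul_le`, `Int.add_mul_ediv_left`). -/
theorem ChartData.mono_mem_span {e e' : Fin 10} {u w : Fin 5 → ℤ} {r : Fin 3 → Fin 5 → ℤ}
    (h : ChartData k e e' u w r) (n : ℕ) {p : ℕ} (hp : 0 < p) {i j : ℤ} {ρ : Fin 5 → ℤ}
    (hi : 0 ≤ i + n * rel ρ e) (hj : 0 ≤ j + n * rel ρ e') :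
    mono k ρ ∈ Submodule.span k {f | ∃ (x1 x2 : Fin p) (ρ' : Fin 5 → ℤ),
      0 ≤ (i + (n : ℤ) * (x1 : ℕ)) / p + n * rel ρ' e ∧ 0 ≤ (j + (n : ℤ) * (x2 : ℕ)) / p + n * rel ρ' e' ∧
      f = mono k ρ' ^ p * mono k u ^ (x1 : ℕ) * mono k w ^ (x2 : ℕ)} := by
  obtain ⟨a, b, c, hρ⟩ := h.basis ρ
  have ha : rel ρ e = a := by
    rw [hρ, rel_add, rel_add]
    simp only [Pi.add_apply, chart_rel_smul, h.ue, h.we, chart_rel_sum c r e h.re]
    ring
  have hb : rel ρ e' = b := by
    rw [hρ, rel_add, rel_add]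
    simp only [Pi.add_apply, chart_rel_smul, h.ue', h.we', chart_rel_sum c r e' h.re']
    ring
  rw [ha] at hi
  rw [hb] at hj
  obtain ⟨M, hM⟩ : ∃ M : ℕ, ∀ l, 0 ≤ c l + p * M := by
    refine ⟨(c 0).natAbs + (c 1).natAbs + (c 2).natAbs, fun l => ?_⟩
    have hp' : (1 : ℤ) ≤ p := by exact_mod_cast hp
    have h1 : (((c 0).natAbs + (c 1).natAbs + (c 2).natAbs : ℕ) : ℤ) ≤
        p * (((c 0).natAbs + (c 1).natAbs + (c 2).natAbs : ℕ) : ℤ) :=
      le_mul_of_one_le_left (by positivity) hp'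
    have h2 : -c l ≤ (((c 0).natAbs + (c 1).natAbs + (c 2).natAbs : ℕ) : ℤ) := by
      fin_cases l <;> simp only [Fin.zero_eta, Fin.mk_one, Fin.reduceFinMk] <;> omega
    linarith
  set η : Fin 5 → ℤ := ∑ l, (M : ℤ) • r l with hη
  have hmem : mono k (∑ l, (c l + p * M) • r l) ∈ Algebra.adjoin k {mono k u, mono k w} := by
    have : ∀ l, mono k ((c l + p * M) • r l) ∈ Algebra.adjoin k {mono k u, mono k w} := fun l => by
      rw [← Int.toNat_of_nonneg (hM l), chart_mono_nsmul]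
      exact pow_mem (h.poly l) _
    rw [Fin.sum_univ_three, mono_add, mono_add]
    exact mul_mem (mul_mem (this 0) (this 1)) (this 2)
  have hsplit : mono k ρ = mono k (a • u + b • w - (p : ℤ) • η) *
      mono k (∑ l, (c l + p * M) • r l) := by
    rw [← mono_add]
    congr 1
    rw [hρ, hη]
    funext x
    simp only [Fin.sum_univ_three, Pi.add_apply, Pi.sub_apply, Pi.smul_apply, smul_eq_mul]
    ring
  rw [hsplit]
  have hsp := chart_adjoin_span _ _ hmem
  generalize mono k (∑ l, (c l + p * M) • r l) = g at hsp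
  induction hsp using Submodule.span_induction with
  | mem g hg =>
    obtain ⟨x, y, rfl⟩ := hg
    obtain ⟨x1, a', e1, f1⟩ := chart_div hp n x hi
    obtain ⟨x2, b', e2, f2⟩ := chart_div hp n y hj
    refine Submodule.subset_span ⟨x1, x2, a' • u + b' • w - η, ?_, ?_, ?_⟩
    · rw [chart_rel_sub, rel_add, hη, chart_rel_sum _ r e h.re]
      simpa only [Pi.add_apply, chart_rel_smul, h.ue, h.we, mul_one, mul_zero, add_zero, sub_zero]
        using f1
    · rw [chart_rel_sub, rel_add, hη, chart_rel_sum _ r e' h.re']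
      simpa only [Pi.add_apply, chart_rel_smul, h.ue', h.we', mul_one, mul_zero, zero_add, sub_zero]
        using f2
    · simp only [← chart_mono_nsmul, ← mono_add]
      congr 1
      funext z
      simp only [Pi.add_apply, Pi.sub_apply, Pi.smul_apply, smul_eq_mul]
      linear_combination u z * e1 + w z * e2
  | zero => simp
  | add a b _ _ ha hb => rw [mul_add]; exact add_mem ha hb
  | smul c a _ ha => rw [mul_smul_comm]; exact Submodule.smul_mem _ c ha

end Crest.Agent.R169
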